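import Mathlib

/-!
P281 (helper495), class C, block M1 of helper603: the union of the lines through a segment and a set
which is locally contained in submanifolds of complex codimension two has dense complement.
-/

set_option linter.all false

open Set Filter Metric Topology Module
open scoped ContDiff

noncomputable section

namespace Vale.Agent.P281.H495.C

/-- the common zero set of two functions with independent derivatives is locally contained in the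
image of a space of complex dimension `n - 2` -/
theorem param {n : ℕ} {g : Fin 2 → (Fin n → ℂ) → ℂ} {x : Fin n → ℂ} (h0 : ∀ a, g a x = 0)
    (hg : ∀ a, ContDiffAt ℂ ω (g a) x)
    (hs : Function.Surjective fun (ξ : Fin n → ℂ) (a : Fin 2) => fderiv ℂ (g a) x ξ) :
    ∃ (S : Submodule ℂ (Fin n → ℂ)) (φ : S → (Fin n → ℂ)) (ρ : ℝ),
      finrank ℂ S + 2 = n ∧ 0 < ρ ∧ ContDiffOn ℝ 1 φ (ball 0 ρ) ∧
      ∀ᶠ z in 𝓝 x, (∀ a, g a z = 0) → z ∈ φ '' ball 0 ρ := by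
  set f : (Fin n → ℂ) → (Fin 2 → ℂ) := fun z a => g a z with hf
  have hfc : ContDiffAt ℂ ω f x := contDiffAt_pi.2 hg
  have hd : DifferentiableAt ℂ f x := hfc.differentiableAt (by simp)
  set f' := fderiv ℂ f x with hf'
  have hfa : ∀ ξ a, f' ξ a = fderiv ℂ (g a) x ξ := by
    intro ξ a
    rw [hf', fderiv_pi (fun a => (hg a).differentiableAt (by simp))]
    rfl
  have hsur : Function.Surjective f' := by
    intro v
    obtain ⟨ξ, hξ⟩ := hs v
    refine ⟨ξ, ?_⟩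
    ext a
    rw [hfa]
    exact congrFun hξ a
  set S : Submodule ℂ (Fin n → ℂ) := LinearMap.ker (f' : (Fin n → ℂ) →ₗ[ℂ] (Fin 2 → ℂ)) with hS
  obtain ⟨P, hP⟩ := LinearMap.exists_leftInverse_of_injective S.subtype
    (LinearMap.ker_eq_bot.2 S.injective_subtype)
  have hP' : ∀ v : S, P v = v := fun v => by
    have := congrArg (fun T : S →ₗ[ℂ] S => T v) hP
    simpa using this
  have hrank : finrank ℂ S + 2 = n := by
    have h1 := LinearMap.finrank_range_add_finrank_ker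
      (f' : (Fin n → ℂ) →ₗ[ℂ] (Fin 2 → ℂ))
    rw [LinearMap.range_eq_top.2 hsur, finrank_top, Module.finrank_fin_fun,
      Module.finrank_fin_fun] at h1
    change 2 + finrank ℂ S = n at h1
    omega
  let L : (Fin n → ℂ) →ₗ[ℂ] (Fin 2 → ℂ) × S := (f' : (Fin n → ℂ) →ₗ[ℂ] (Fin 2 → ℂ)).prod P
  have hL : Function.Injective L := by
    rw [← LinearMap.ker_eq_bot, eq_bot_iff]
    intro v hv
    have h1 : L v = 0 := hv
    have h2 : f' v = 0 := congrArg Prod.fst h1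
    have h3 : P v = 0 := congrArg Prod.snd h1
    have h4 : v ∈ S := h2
    have h5 := hP' ⟨v, h4⟩
    rw [Submodule.mem_bot]
    have h6 : (⟨v, h4⟩ : S) = 0 := by rw [← h5]; exact h3
    exact congrArg Subtype.val h6
  have hdim : finrank ℂ (Fin n → ℂ) = finrank ℂ ((Fin 2 → ℂ) × S) := by
    rw [Module.finrank_prod, Module.finrank_fin_fun, Module.finrank_fin_fun]
    omega
  let e : (Fin n → ℂ) ≃ₗ[ℂ] (Fin 2 → ℂ) × S := LinearMap.linearEquivOfInjective L hL hdim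
  have he : ∀ v, e v = (f' v, P v) := fun v => rfl
  let e' := e.toContinuousLinearEquiv
  let Pc : (Fin n → ℂ) →L[ℂ] S := LinearMap.toContinuousLinearMap P
  let Ψ : (Fin n → ℂ) → (Fin 2 → ℂ) × S := fun z => (f z, Pc (z - x))
  have hΨ : ContDiffAt ℂ ω Ψ x :=
    hfc.prodMk (Pc.contDiff.contDiffAt.comp x (contDiffAt_id.sub contDiffAt_const))
  have hΨ' : HasFDerivAt Ψ (e' : (Fin n → ℂ) →L[ℂ] (Fin 2 → ℂ) × S) x := by
    have h1 : HasFDerivAt Ψ (f'.prod Pc) x := by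
      refine hd.hasFDerivAt.prodMk ?_
      have h2 : HasFDerivAt (fun z => Pc (z - x)) (Pc.comp (ContinuousLinearMap.id ℂ _)) x :=
        Pc.hasFDerivAt.comp x (hasFDerivAt_sub_const x)
      rwa [ContinuousLinearMap.comp_id] at h2
    have h2 : (e' : (Fin n → ℂ) →L[ℂ] (Fin 2 → ℂ) × S) = f'.prod Pc :=
      ContinuousLinearMap.ext fun v => he v
    rw [h2]
    exact h1
  let h := hΨ.toOpenPartialHomeomorph Ψ hΨ' (by simp)
  have hsrc : x ∈ h.source := hΨ.mem_toOpenPartialHomeomorph_source hΨ' (by simp)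
  have hΨx : Ψ x = (0, 0) := by
    refine Prod.ext (funext fun a => h0 a) ?_
    change Pc (x - x) = 0
    rw [sub_self, map_zero]
  have hsymm : ContDiffAt ℂ ω h.symm (Ψ x) := by
    refine h.contDiffAt_symm (h.map_source hsrc) (f₀' := e') ?_ ?_
    · have : h.symm (Ψ x) = x := h.left_inv hsrc
      rw [this]
      exact hΨ'
    · have : h.symm (Ψ x) = x := h.left_inv hsrc
      rw [this]
      exact hΨ
  have hφ : ContDiffAt ℝ 1 (fun y : S => h.symm ((0 : Fin 2 → ℂ), y)) 0 := by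
    have h1 : ContDiffAt ℂ ω (fun y : S => h.symm ((0 : Fin 2 → ℂ), y)) 0 := by
      rw [hΨx] at hsymm
      exact hsymm.comp (0 : S) (contDiffAt_const.prodMk contDiffAt_id)
    exact (h1.restrict_scalars ℝ).of_le (by simp)
  obtain ⟨u, hu, hcu⟩ := hφ.contDiffOn le_rfl (by simp)
  obtain ⟨ρ, hρ, hball⟩ := Metric.mem_nhds_iff.1
    (show u ∈ 𝓝 (0 : S) by simpa [nhdsWithin_univ] using hu)
  refine ⟨S, fun y => h.symm (0, y), ρ, hrank, hρ, hcu.mono hball, ?_⟩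
  have ev1 : ∀ᶠ z in 𝓝 x, z ∈ h.source := h.open_source.mem_nhds hsrc
  have ev2 : ∀ᶠ z in 𝓝 x, Pc (z - x) ∈ ball (0 : S) ρ := by
    have hcont : ContinuousAt (fun z => Pc (z - x)) x := by fun_prop
    have hb : ball (0 : S) ρ ∈ 𝓝 (Pc (x - x)) := by
      rw [sub_self, map_zero]
      exact ball_mem_nhds _ hρ
    exact hcont.eventually hb
  filter_upwards [ev1, ev2] with z hz1 hz2 hz3
  refine ⟨Pc (z - x), hz2, ?_⟩
  have h1 : Ψ z = (0, Pc (z - x)) := Prod.ext (funext fun a => hz3 a) rfl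
  have h2 : h.symm (Ψ z) = z := h.left_inv hz1
  rw [h1] at h2
  exact h2

/-- one piece -/
theorem piece {n : ℕ} {H : Set (Fin n → ℂ)} {x : Fin n → ℂ} (hx : x ∈ H)
    {g : Fin 2 → (Fin n → ℂ) → ℂ} (hg : ∀ a, ContDiffAt ℂ ω (g a) x)
    (hs : Function.Surjective fun (ξ : Fin n → ℂ) (a : Fin 2) => fderiv ℂ (g a) x ξ)
    (hz : ∀ᶠ z in 𝓝 x, z ∈ H → ∀ a, g a z = 0) (a a' : Fin n → ℂ) :
    2 ≤ n ∧ ∃ U ∈ 𝓝 x, ∃ Z : Set (Fin n → ℂ), dimH Z ≤ ((2 * n - 2 : ℕ) : ENNReal) ∧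
      ∀ z ∈ U ∩ H, ∀ s τ : ℝ, (a + s • a') + τ • (z - (a + s • a')) ∈ Z := by
  have h0 : ∀ a, g a x = 0 := hz.self_of_nhds hx
  obtain ⟨S, φ, ρ, hS, hρ, hφ, hcov⟩ := param h0 hg hs
  refine ⟨by omega, {z | z ∈ H → z ∈ φ '' ball 0 ρ}, ?_, ?_⟩
  · filter_upwards [hz, hcov] with z h1 h2 h3
    exact h2 (h1 h3)
  let F : S × ℝ × ℝ → (Fin n → ℂ) := fun p =>
    (a + p.2.1 • a') + p.2.2 • (φ p.1 - (a + p.2.1 • a'))
  let T : Set (S × ℝ × ℝ) := ball 0 ρ ×ˢ univ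
  have hT : Convex ℝ T := (convex_ball _ _).prod convex_univ
  have hF : ContDiffOn ℝ 1 F T := by
    have h1 : ContDiffOn ℝ 1 (fun p : S × ℝ × ℝ => φ p.1) T :=
      hφ.comp contDiff_fst.contDiffOn (fun p hp => hp.1)
    have h2 : ContDiffOn ℝ 1 (fun p : S × ℝ × ℝ => a + p.2.1 • a') T := by
      apply ContDiff.contDiffOn
      fun_prop
    have h3 : ContDiffOn ℝ 1 (fun p : S × ℝ × ℝ => p.2.2) T := by
      apply ContDiff.contDiffOn
      fun_prop
    exact h2.add (h3.smul (h1.sub h2))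
  refine ⟨F '' T, ?_, ?_⟩
  · have h1 : dimH (F '' T) ≤ dimH T := hF.dimH_image_le hT subset_rfl
    have h2 : dimH T ≤ dimH (univ : Set (S × ℝ × ℝ)) := dimH_mono (subset_univ _)
    rw [Real.dimH_univ_eq_finrank] at h2
    refine (h1.trans h2).trans ?_
    have h3 : finrank ℝ (S × ℝ × ℝ) = 2 * n - 2 := by
      rw [Module.finrank_prod, Module.finrank_prod, Module.finrank_self,
        finrank_real_of_complex]
      omega
    rw [h3]
  · rintro z ⟨hzU, hzH⟩ s τ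
    obtain ⟨y, hy, rfl⟩ := hzU hzH
    exact ⟨(y, s, τ), ⟨hy, mem_univ _⟩, rfl⟩

/-- **general position** -/
theorem small {n : ℕ} (H : ℕ → Set (Fin n → ℂ))
    (hH : ∀ k, ∀ x ∈ H k, ∃ g : Fin 2 → (Fin n → ℂ) → ℂ, (∀ a, ContDiffAt ℂ ω (g a) x) ∧
      (Function.Surjective fun (ξ : Fin n → ℂ) (a : Fin 2) => fderiv ℂ (g a) x ξ) ∧
      ∀ᶠ z in 𝓝 x, z ∈ H k → ∀ a, g a z = 0) (a a' : Fin n → ℂ) :
    ∃ Z : Set (Fin n → ℂ), Dense Zᶜ ∧
      ∀ k, ∀ x ∈ H k, ∀ s τ : ℝ, (a + s • a') + τ • (x - (a + s • a')) ∈ Z := by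
  classical
  have hp : ∀ k, ∀ x ∈ H k, 2 ≤ n ∧ ∃ U ∈ 𝓝 x, ∃ Z : Set (Fin n → ℂ),
      dimH Z ≤ ((2 * n - 2 : ℕ) : ENNReal) ∧
      ∀ z ∈ U ∩ H k, ∀ s τ : ℝ, (a + s • a') + τ • (z - (a + s • a')) ∈ Z := by
    intro k x hx
    obtain ⟨g, h1, h2, h3⟩ := hH k x hx
    exact piece hx h1 h2 h3 a a'
  by_cases hn : 2 ≤ n
  · have hq : ∀ k, ∃ Z : Set (Fin n → ℂ), dimH Z ≤ ((2 * n - 2 : ℕ) : ENNReal) ∧
        ∀ x ∈ H k, ∀ s τ : ℝ, (a + s • a') + τ • (x - (a + s • a')) ∈ Z := by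
      intro k
      have h1 : ∀ x, ∃ U : Set (Fin n → ℂ), ∃ Z : Set (Fin n → ℂ), x ∈ H k → (U ∈ 𝓝 x ∧
          dimH Z ≤ ((2 * n - 2 : ℕ) : ENNReal) ∧
          ∀ z ∈ U ∩ H k, ∀ s τ : ℝ, (a + s • a') + τ • (z - (a + s • a')) ∈ Z) := by
        intro x
        by_cases hx : x ∈ H k
        · obtain ⟨-, U, hU, Z, hZ, hz⟩ := hp k x hx
          exact ⟨U, Z, fun _ => ⟨hU, hZ, hz⟩⟩
        · exact ⟨∅, ∅, fun h => (hx h).elim⟩
      choose U Z hUZ using h1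
      obtain ⟨t, htH, htc, hcov⟩ := TopologicalSpace.countable_cover_nhdsWithin
        (f := U) (s := H k) (fun x hx => mem_nhdsWithin_of_mem_nhds (hUZ x hx).1)
      refine ⟨⋃ x ∈ t, Z x, ?_, ?_⟩
      · rw [dimH_bUnion htc]
        exact iSup₂_le fun x hx => (hUZ x (htH hx)).2.1
      · intro z hz s τ
        obtain ⟨x, hx, hzU⟩ := mem_iUnion₂.1 (hcov hz)
        exact mem_iUnion₂.2 ⟨x, hx, (hUZ x (htH hx)).2.2 z ⟨hzU, hz⟩ s τ⟩
    choose Z hZ hz using hq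
    refine ⟨⋃ k, Z k, ?_, fun k x hx s τ => mem_iUnion.2 ⟨k, hz k x hx s τ⟩⟩
    refine dense_compl_of_dimH_lt_finrank (E := Fin n → ℂ) ?_
    rw [dimH_iUnion]
    refine lt_of_le_of_lt (iSup_le fun k => hZ k) ?_
    have h3 : finrank ℝ (Fin n → ℂ) = 2 * n := by
      rw [Module.finrank_pi_fintype]
      simp [Complex.finrank_real_complex, mul_comm]
    rw [h3]
    exact_mod_cast (by omega : 2 * n - 2 < 2 * n)
  · refine ⟨∅, by simp, fun k x hx => (hn (hp k x hx).1).elim⟩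

end Vale.Agent.P281.H495.C
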