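import Mathlib

/-!
P281 (helper495), class C, block M1 of helper603: a covering of the complement of a set in general
position in a convex set has sections.
-/

set_option linter.all false

open Set Filter Metric Topology

noncomputable section

namespace Vale.Agent.P281.H495.C

section lift

variable {E C : Type*} [NormedAddCommGroup E] [NormedSpace ℝ E] [TopologicalSpace C]

/-- a section over `T`, as a function on the whole space -/
structure Sc {U : Set E} (c : C → U) (T : Set E) (σ : E → C) : Prop where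
  cont : ContinuousOn σ T
  sec : ∀ b ∈ T, (c (σ b) : E) = b

variable {U : Set E} {c : C → U}

theorem Sc.mono {T T' : Set E} {σ : E → C} (h : Sc c T σ) (hT : T' ⊆ T) : Sc c T' σ :=
  ⟨h.cont.mono hT, fun b hb => h.sec b (hT hb)⟩

theorem Sc.unique (hc : IsCoveringMap c) {T : Set E} (hT : IsPreconnected T) {σ τ : E → C}
    (h1 : Sc c T σ) (h2 : Sc c T τ) {a : E} (ha : a ∈ T) (e : σ a = τ a) : EqOn σ τ T :=
  hc.eqOn_of_comp_eqOn hT h1.cont h2.cont
    (fun b hb => Subtype.ext ((h1.sec b hb).trans (h2.sec b hb).symm)) ha e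

theorem exists_sc (hc : IsCoveringMap c) {T : Set E} (hTU : T ⊆ U) (h1 : ContractibleSpace T)
    (h2 : LocallyPathConnectedSpace T) {y : C} (hy : (c y : E) ∈ T) :
    ∃ σ : E → C, Sc c T σ ∧ σ (c y) = y := by
  classical
  let f : C(T, U) := ⟨fun b => ⟨b, hTU b.2⟩, by fun_prop⟩
  obtain ⟨F, ⟨hF0, hF⟩, -⟩ := hc.existsUnique_continuousMap_lifts f ⟨c y, hy⟩ y rfl
  have hv : ∀ b (hb : b ∈ T), (if h : b ∈ T then F ⟨b, h⟩ else y) = F ⟨b, hb⟩ := fun b hb =>
    dif_pos hb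
  refine ⟨fun b => if h : b ∈ T then F ⟨b, h⟩ else y, ⟨?_, ?_⟩, ?_⟩
  · rw [continuousOn_iff_continuous_restrict]
    refine F.continuous.congr fun b => ?_
    exact (hv b b.2).symm
  · intro b hb
    change ((c (if h : b ∈ T then F ⟨b, h⟩ else y) : U) : E) = b
    rw [hv b hb]
    have := congrFun hF ⟨b, hb⟩
    exact congrArg Subtype.val this
  · exact (hv _ hy).trans hF0

/-- convex sets -/
theorem exists_sc_convex (hc : IsCoveringMap c) {T : Set E} (hTU : T ⊆ U) (hT : Convex ℝ T)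
    {y : C} (hy : (c y : E) ∈ T) : ∃ σ : E → C, Sc c T σ ∧ σ (c y) = y :=
  exists_sc hc hTU (hT.contractibleSpace ⟨_, hy⟩) hT.locallyPathConnectedSpace hy

theorem isCompact_seg (a b : E) : IsCompact (segment ℝ a b) := by
  rw [segment_eq_image]
  exact isCompact_Icc.image (by fun_prop)

/-- the star of `a` -/
def Star' (U : Set E) (a : E) : Set E := {b | segment ℝ a b ⊆ U}

theorem star_open (hU : IsOpen U) (a : E) : IsOpen (Star' U a) := by
  rw [isOpen_iff_mem_nhds]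
  intro b hb
  have hK : IsCompact (segment ℝ a b) := isCompact_seg a b
  obtain ⟨δ, hδ, hsub⟩ := hK.exists_thickening_subset_open hU hb
  filter_upwards [ball_mem_nhds b hδ] with b' hb'
  have hcv : Convex ℝ (thickening δ (segment ℝ a b)) := (convex_segment a b).thickening δ
  refine (hcv.segment_subset ?_ ?_).trans hsub
  · exact self_subset_thickening hδ _ (left_mem_segment ℝ a b)
  · exact mem_thickening_iff.2 ⟨b, right_mem_segment ℝ a b, hb'⟩

theorem star_star (a : E) : StarConvex ℝ a (Star' U a) := by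
  rw [starConvex_iff_segment_subset]
  intro b hb z hz
  refine Subset.trans ?_ hb
  exact (convex_segment a b).segment_subset (left_mem_segment ℝ a b) hz

theorem convex_sub_star {N : Set E} (hN : Convex ℝ N) (hNU : N ⊆ U) {a : E} (ha : a ∈ N) :
    N ⊆ Star' U a := fun b hb => (hN.segment_subset ha hb).trans hNU

end lift

section main

variable {E : Type*} [NormedAddCommGroup E] [NormedSpace ℝ E]

/-- general position of a point and a segment (`TriStmt`) -/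
def Tri (U B : Set E) : Prop :=
  ∀ a ∈ B, ∀ a' ∈ B, segment ℝ a a' ⊆ U → ∀ b ∈ B, ∀ W ∈ 𝓝 b, ∃ b' ∈ W ∩ B,
    ∀ c ∈ segment ℝ a a', segment ℝ c b' ⊆ U

theorem star_dense {U B : Set E} (hUB : U ⊆ B) (ht : Tri U B) {a : E} (ha : a ∈ U) {b : E}
    (hb : b ∈ B) {W : Set E} (hW : W ∈ 𝓝 b) : ∃ b' ∈ W ∩ B, b' ∈ Star' U a := by
  obtain ⟨b', h1, h2⟩ := ht a (hUB ha) a (hUB ha) (by simpa using ha) b hb W hW
  exact ⟨b', h1, h2 a (left_mem_segment ℝ a a)⟩

theorem preconn {U B : Set E} (hUB : U ⊆ B) (ht : Tri U B) : IsPreconnected U := by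
  rcases U.eq_empty_or_nonempty with h | ⟨a, ha⟩
  · rw [h]
    exact isPreconnected_empty
  have hS : IsPreconnected (Star' U a) :=
    ((star_star a).isPathConnected (by simpa [Star'] using ha)).isConnected.isPreconnected
  refine hS.subset_closure (fun b hb => hb (right_mem_segment ℝ a b)) ?_
  intro b hb
  rw [mem_closure_iff_nhds]
  intro W hW
  obtain ⟨b', h1, h2⟩ := star_dense hUB ht ha (hUB hb) hW
  exact ⟨b', h1.1, h2⟩

variable {C : Type*} [TopologicalSpace C] [T2Space C]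

/-- the key: near every point of `U` the section over the star of `a` extends -/
theorem ext_near {U B : Set E} (hU : IsOpen U) (hUB : U ⊆ B) (ht : Tri U B) {c : C → U}
    (hc : IsCoveringMap c) {a : E} (ha : a ∈ U) {σ : E → C} (hσ : Sc c (Star' U a) σ) {b : E}
    (hb : b ∈ U) : ∃ V τ, IsOpen V ∧ b ∈ V ∧ V ⊆ U ∧ Sc c V τ ∧ EqOn σ τ (V ∩ Star' U a) := by
  obtain ⟨ρ, hρ, hV⟩ := Metric.isOpen_iff.1 hU b hb
  obtain ⟨b₁, hb₁, hb₁'⟩ := star_dense hUB ht ha (hUB hb) (ball_mem_nhds b hρ)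
  have e₁ : (c (σ b₁) : E) = b₁ := hσ.sec b₁ hb₁'
  obtain ⟨τ, hτ, hτ1⟩ := exists_sc_convex hc hV (convex_ball b ρ) (y := σ b₁)
    (by rw [e₁]; exact hb₁.1)
  rw [e₁] at hτ1
  refine ⟨ball b ρ, τ, isOpen_ball, mem_ball_self hρ, hV, hτ, ?_⟩
  rintro b₂ ⟨hb₂, hb₂'⟩
  -- a neighbourhood of `a`
  obtain ⟨δ₁, hδ₁, hs₁⟩ := (isCompact_seg a b₁).exists_thickening_subset_open hU hb₁'
  obtain ⟨δ₂, hδ₂, hs₂⟩ := (isCompact_seg a b₂).exists_thickening_subset_open hU hb₂'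
  set N₁ := thickening δ₁ (segment ℝ a b₁) with hN₁
  set N₂ := thickening δ₂ (segment ℝ a b₂) with hN₂
  have cN₁ : Convex ℝ N₁ := (convex_segment a b₁).thickening δ₁
  have cN₂ : Convex ℝ N₂ := (convex_segment a b₂).thickening δ₂
  have aN₁ : a ∈ N₁ := self_subset_thickening hδ₁ _ (left_mem_segment ℝ a b₁)
  have aN₂ : a ∈ N₂ := self_subset_thickening hδ₂ _ (left_mem_segment ℝ a b₂)
  have bN₁ : b₁ ∈ N₁ := self_subset_thickening hδ₁ _ (right_mem_segment ℝ a b₁)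
  have bN₂ : b₂ ∈ N₂ := self_subset_thickening hδ₂ _ (right_mem_segment ℝ a b₂)
  have hW : N₁ ∩ N₂ ∈ 𝓝 a := (isOpen_thickening.inter isOpen_thickening).mem_nhds ⟨aN₁, aN₂⟩
  have h12 : segment ℝ b₁ b₂ ⊆ ball b ρ := (convex_ball b ρ).segment_subset hb₁.1 hb₂
  obtain ⟨a₁, ⟨ha₁, ha₁B⟩, htri⟩ := ht b₁ hb₁.2 b₂ (hUB (hV hb₂)) (h12.trans hV) a (hUB ha) _ hW
  have S₁ : N₁ ⊆ Star' U a := convex_sub_star cN₁ hs₁ aN₁
  have S₂ : N₂ ⊆ Star' U a := convex_sub_star cN₂ hs₂ aN₂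
  -- the triangle
  set T := convexHull ℝ (insert a₁ (segment ℝ b₁ b₂)) with hT
  have hTU : T ⊆ U := by
    rw [hT, convexHull_insert ⟨b₁, left_mem_segment ℝ b₁ b₂⟩,
      (convex_segment b₁ b₂).convexHull_eq]
    intro z hz
    rw [mem_convexJoin] at hz
    obtain ⟨p, hp, q, hq, hz⟩ := hz
    rw [mem_singleton_iff] at hp
    subst hp
    rw [segment_symm] at hz
    exact htri q hq hz
  have cT : Convex ℝ T := convex_convexHull ℝ _
  have aT : a₁ ∈ T := subset_convexHull ℝ _ (mem_insert _ _)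
  have sT : segment ℝ b₁ b₂ ⊆ T := (subset_insert _ _).trans (subset_convexHull ℝ _)
  have bT₁ : b₁ ∈ T := sT (left_mem_segment ℝ b₁ b₂)
  have bT₂ : b₂ ∈ T := sT (right_mem_segment ℝ b₁ b₂)
  have e₂ : (c (σ a₁) : E) = a₁ := hσ.sec a₁ (S₁ ha₁.1)
  obtain ⟨ν, hν, hν1⟩ := exists_sc_convex hc hTU cT (y := σ a₁) (by rw [e₂]; exact aT)
  rw [e₂] at hν1
  -- compare on three segments
  have k₁ : σ b₁ = ν b₁ := by
    refine Sc.unique hc (convex_segment a₁ b₁).isPreconnected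
      (hσ.mono ((cN₁.segment_subset ha₁.1 bN₁).trans S₁)) (hν.mono (cT.segment_subset aT bT₁))
      (left_mem_segment ℝ a₁ b₁) hν1.symm (right_mem_segment ℝ a₁ b₁)
  have k₂ : σ b₂ = ν b₂ := by
    refine Sc.unique hc (convex_segment a₁ b₂).isPreconnected
      (hσ.mono ((cN₂.segment_subset ha₁.2 bN₂).trans S₂)) (hν.mono (cT.segment_subset aT bT₂))
      (left_mem_segment ℝ a₁ b₂) hν1.symm (right_mem_segment ℝ a₁ b₂)
  have k₃ : ν b₂ = τ b₂ := by
    refine Sc.unique hc (convex_segment b₁ b₂).isPreconnected (hν.mono sT) (hτ.mono h12)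
      (left_mem_segment ℝ b₁ b₂) ?_ (right_mem_segment ℝ b₁ b₂)
    rw [← k₁, hτ1]
  rw [k₂, k₃]

/-- **sections exist** -/
theorem exists_section {U B : Set E} (hU : IsOpen U) (hUB : U ⊆ B) (ht : Tri U B) {c : C → U}
    (hc : IsCoveringMap c) (x : C) : ∃ s : C(U, C), (∀ b, c (s b) = b) ∧ s (c x) = x := by
  classical
  set a : E := (c x).1 with ha'
  have ha : a ∈ U := (c x).2
  have haS : a ∈ Star' U a := by simpa [Star'] using ha
  have hSU : Star' U a ⊆ U := fun b hb => hb (right_mem_segment ℝ a b)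
  obtain ⟨σ, hσ, hσa⟩ := exists_sc hc hSU ((star_star a).contractibleSpace ⟨a, haS⟩)
    (star_open hU a).locallyPathConnectedSpace (y := x) haS
  have key : ∀ b : E, ∃ (V : Set E) (τ : E → C), b ∈ U → (IsOpen V ∧ b ∈ V ∧ V ⊆ U ∧ Sc c V τ ∧
      EqOn σ τ (V ∩ Star' U a)) := by
    intro b
    by_cases hb : b ∈ U
    · obtain ⟨V, τ, h⟩ := ext_near hU hUB ht hc ha hσ hb
      exact ⟨V, τ, fun _ => h⟩
    · exact ⟨∅, σ, fun h => (hb h).elim⟩
  choose V τ hVτ using key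
  -- two local extensions agree
  have agree : ∀ b₀ ∈ U, ∀ b ∈ V b₀, τ b b = τ b₀ b := by
    intro b₀ hb₀ b hb
    obtain ⟨o0, m0, s0, c0, q0⟩ := hVτ b₀ hb₀
    have hbU : b ∈ U := s0 hb
    obtain ⟨o1, m1, s1, c1, q1⟩ := hVτ b hbU
    set D := V b ∩ V b₀ ∩ Star' U a with hD
    have hne : (𝓝[D] b).NeBot := by
      rw [← mem_closure_iff_nhdsWithin_neBot, mem_closure_iff_nhds]
      intro W hW
      have hW' : W ∩ (V b ∩ V b₀) ∈ 𝓝 b := inter_mem hW ((o1.inter o0).mem_nhds ⟨m1, hb⟩)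
      obtain ⟨b', h1, h2⟩ := star_dense hUB ht ha (hUB hbU) hW'
      exact ⟨b', h1.1.1, h1.1.2, h2⟩
    have t1 : Tendsto (τ b) (𝓝[D] b) (𝓝 (τ b b)) :=
      (c1.cont.continuousAt (o1.mem_nhds m1)).mono_left nhdsWithin_le_nhds
    have t2 : Tendsto (τ b₀) (𝓝[D] b) (𝓝 (τ b₀ b)) :=
      (c0.cont.continuousAt (o0.mem_nhds hb)).mono_left nhdsWithin_le_nhds
    have t3 : τ b =ᶠ[𝓝[D] b] τ b₀ := by
      filter_upwards [self_mem_nhdsWithin] with z hz
      rw [← q1 ⟨hz.1.1, hz.2⟩, ← q0 ⟨hz.1.2, hz.2⟩]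
    exact tendsto_nhds_unique (t1.congr' t3) t2
  refine ⟨⟨fun b => τ b b, ?_⟩, ?_, ?_⟩
  · rw [continuous_iff_continuousAt]
    intro b₀
    obtain ⟨o0, m0, s0, c0, q0⟩ := hVτ b₀ b₀.2
    have h1 : ContinuousAt (fun b : U => τ b₀ b) b₀ :=
      (c0.cont.continuousAt (o0.mem_nhds m0)).comp continuous_subtype_val.continuousAt
    refine h1.congr ?_
    have h2 : ∀ᶠ b : U in 𝓝 b₀, (b : E) ∈ V b₀ :=
      continuous_subtype_val.continuousAt.eventually (o0.mem_nhds m0)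
    filter_upwards [h2] with b hb
    exact (agree b₀ b₀.2 b hb).symm
  · intro b
    obtain ⟨o0, m0, s0, c0, q0⟩ := hVτ b b.2
    exact Subtype.ext (c0.sec b m0)
  · obtain ⟨o0, m0, s0, c0, q0⟩ := hVτ a ha
    change τ a a = x
    rw [← q0 ⟨m0, haS⟩]
    exact hσa

end main

end Vale.Agent.P281.H495.C
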