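import Vale.Agent.P281.H603.C.Spec
import Vale.Agent.P281.H495.C.Dim
import Vale.Agent.P281.H495.C.Sec

/-!
P281 (helper495), class C: **M1** = `TriStmt` and `SecStmt` of helper603.
-/

set_option linter.all false

open Set Filter Metric Topology
open Vale.Agent.P281.H603.C
open scoped ContDiff

noncomputable section

namespace Vale.Agent.P281.H495.C

theorem thin_small {n : ℕ} {A B : Set (Fin n → ℂ)} (h : Thin2 A B) (a a' : Fin n → ℂ) :
    ∃ Z : Set (Fin n → ℂ), Dense Zᶜ ∧ ∀ x ∈ A ∩ B, ∀ s τ : ℝ,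
      (a + s • a') + τ • (x - (a + s • a')) ∈ Z := by
  obtain ⟨H, hc, hH⟩ := h.cover
  obtain ⟨Z, hZ, hz⟩ := small H hH a a'
  refine ⟨Z, hZ, fun x hx s τ => ?_⟩
  obtain ⟨k, hk⟩ := mem_iUnion.1 (hc hx)
  exact hz k x hk s τ

/-- **M1a** -/
theorem tri : TriStmt := by
  intro n A B hA hB hcv a ha a' ha' hseg b hb W hW
  obtain ⟨Z, hZ, hz⟩ := thin_small hA a (a' - a)
  have hWB : W ∩ B ∈ 𝓝 b := inter_mem hW (hB.mem_nhds hb)
  obtain ⟨b', hb', hbZ⟩ := mem_closure_iff_nhds.1 (hZ b) _ hWB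
  refine ⟨b', hb', fun c hc x hx hxA => ?_⟩
  have hcB : c ∈ B := hcv.segment_subset ha ha' hc
  have hxB : x ∈ B := hcv.segment_subset hcB hb'.2 hx
  have hcA := hseg c hc
  rw [segment_eq_image'] at hc hx
  obtain ⟨s, -, rfl⟩ := hc
  obtain ⟨t, -, rfl⟩ := hx
  by_cases ht : t = 0
  · subst ht
    exact hcA (by simpa using hxA)
  · apply hbZ
    have := hz _ ⟨hxA, hxB⟩ s t⁻¹
    convert this using 1
    simp only [add_sub_cancel_left]
    rw [smul_smul, inv_mul_cancel₀ ht, one_smul]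
    abel

/-- **M1b** -/
theorem sec : SecStmt := by
  intro n A B hA hB hcv
  have hU : IsOpen (B \ A) := by
    rw [isOpen_iff_mem_nhds]
    intro b hb
    filter_upwards [hB.mem_nhds hb.1, hA.closed b hb.1 hb.2] with x h1 h2
    exact ⟨h1, h2⟩
  have ht : Tri (B \ A) B := by
    intro a ha a' ha' hseg b hb W hW
    obtain ⟨b', hb', h⟩ := tri n A B hA hB hcv a ha a' ha' (fun c hc => (hseg hc).2) b hb W hW
    refine ⟨b', hb', fun c hc x hx => ⟨?_, h c hc x hx⟩⟩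
    exact hcv.segment_subset (hcv.segment_subset ha ha' hc) hb'.2 hx
  refine ⟨preconn diff_subset ht, ?_, ?_⟩
  · intro b hb W hW
    obtain ⟨Z, hZ, hz⟩ := thin_small hA 0 0
    obtain ⟨b', hb', hbZ⟩ := mem_closure_iff_nhds.1 (hZ b) _ (inter_mem hW (hB.mem_nhds hb))
    refine ⟨b', hb', fun hbA => hbZ ?_⟩
    have := hz b' ⟨hbA, hb'.2⟩ 0 1
    simpa using this
  · intro C _ _ c hc x
    exact exists_section hU diff_subset ht hc x

end Vale.Agent.P281.H495.C
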